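import Vale.Agent.P004E.H628.N1
import Vale.Agent.P004E.H628.Lat3

/-!
# P004E: partial sums of the coefficients of `L(s, ψ²)` and `L(s, ψ⁴)`
-/

open Real MeasureTheory Set

namespace P004
namespace QN

open P004G (cop RQ LD GoodAt TrivAt CoefQ trQ Crv)
open ComplexConjugate

variable (A : ℤ)

/-- Gaussian integers as pairs -/
def gp : GaussianInt ≃ ℤ × ℤ where
  toFun z := (z.re, z.im)
  invFun q := ⟨q.1, q.2⟩
  left_inv z := by cases z; rfl
  right_inv q := by cases q; rfl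

lemma xi_ev (z : GaussianInt) :
    xi A z = GaussianInt.toComplex (Phi A z) * Lat.ev z.re z.im := by
  unfold xi
  rw [Lat.ev_eq, map_mul, mul_div_assoc, GaussianInt.toComplex_def₂ z, A1.norm_eq]
  push_cast
  rfl

open scoped Classical in
/-- the periodic weight -/
noncomputable def Gw (k : ℕ) (v : ZMod (MQ A) × ZMod (MQ A)) : ℂ :=
  if A1.Prim ⟨v.1.val, v.2.val⟩ then GaussianInt.toComplex (Phi A ⟨v.1.val, v.2.val⟩) ^ k else 0

lemma Gw_le (k : ℕ) (v : ZMod (MQ A) × ZMod (MQ A)) : ‖Gw A k v‖ ≤ 1 := by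
  unfold Gw
  split_ifs
  · rw [norm_pow]
    apply pow_le_one₀ (norm_nonneg _)
    rw [norm_toC]
    rcases Phi_is4 A ⟨v.1.val, v.2.val⟩ with h | h | h | h | h <;> rw [h] <;>
      norm_num [Zsqrtd.norm_def, ii]
  · simp

open scoped Classical in
lemma Gw_eq (k : ℕ) (z : GaussianInt) : Gw A k ((z.re : ZMod (MQ A)), (z.im : ZMod (MQ A))) =
    if A1.Prim z then GaussianInt.toComplex (Phi A z) ^ k else 0 := by
  have : NeZero (MQ A) := ⟨MQ_ne_zero A⟩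
  have key : ∀ a : ℤ, ((MQ A : ℕ) : ℤ) ∣ ((a : ZMod (MQ A)).val : ℤ) - a := by
    intro a
    rw [← ZMod.intCast_zmod_eq_zero_iff_dvd]
    push_cast
    rw [ZMod.natCast_zmod_val, sub_self]
  obtain ⟨s, hs⟩ := key z.re
  obtain ⟨t, ht⟩ := key z.im
  have hd : ((MQ A : ℕ) : GaussianInt) ∣
      (⟨((z.re : ZMod (MQ A)).val : ℤ), ((z.im : ZMod (MQ A)).val : ℤ)⟩ : GaussianInt) - z := by
    refine ⟨⟨s, t⟩, ?_⟩
    apply Zsqrtd.ext
    · rw [Zsqrtd.re_sub, Zsqrtd.re_mul, Zsqrtd.re_natCast, Zsqrtd.im_natCast]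
      rw [hs]; ring
    · rw [Zsqrtd.im_sub, Zsqrtd.im_mul, Zsqrtd.re_natCast, Zsqrtd.im_natCast]
      rw [ht]; ring
  have hd4 : (((4 : ℕ) : ℤ) : GaussianInt) ∣
      (⟨((z.re : ZMod (MQ A)).val : ℤ), ((z.im : ZMod (MQ A)).val : ℤ)⟩ : GaussianInt) - z := by
    refine dvd_trans ?_ hd
    refine ⟨((2 * RQ A : ℕ) : GaussianInt), ?_⟩
    unfold MQ
    push_cast
    ring
  have hP : A1.Prim (⟨((z.re : ZMod (MQ A)).val : ℤ), ((z.im : ZMod (MQ A)).val : ℤ)⟩ :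
      GaussianInt) ↔ A1.Prim z := by
    constructor
    · intro h
      exact prim_congr hd4 h
    · intro h
      apply prim_congr _ h
      rw [← neg_sub]; exact (dvd_neg).2 hd4
  unfold Gw
  simp only
  rw [Phi_congr' A hd]
  simp only [hP]

open scoped Classical in
lemma sum_fk_eq (k N : ℕ) : ((∑ n ∈ Finset.Icc 1 N, fk A k n : ℝ) : ℂ) =
    ∑' z : ℤ × ℤ, Gw A k ((z.1 : ZMod (MQ A)), (z.2 : ZMod (MQ A))) * Lat.D k N z := by
  rw [← gp.tsum_eq]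
  set g : GaussianInt → ℂ := fun z => if A1.Prim z ∧ z.norm ≤ N then xi A z ^ k else 0 with hg
  have h1 : ∀ z : GaussianInt, Gw A k (((gp z).1 : ZMod (MQ A)), ((gp z).2 : ZMod (MQ A))) *
      Lat.D k N (gp z) = g z := by
    intro z
    change Gw A k ((z.re : ZMod (MQ A)), (z.im : ZMod (MQ A))) * Lat.D k N (z.re, z.im) = g z
    rw [Gw_eq]
    unfold Lat.D
    simp only [hg, A1.norm_eq]
    by_cases hP : A1.Prim z
    · rw [if_pos hP]
      by_cases hN : z.re ^ 2 + z.im ^ 2 ≤ (N : ℤ)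
      · rw [if_pos hN, if_pos ⟨hP, hN⟩, xi_ev, mul_pow]
      · rw [if_neg hN, if_neg (fun h => hN h.2), mul_zero]
    · rw [if_neg hP, zero_mul, if_neg (fun h => hP h.1)]
  rw [tsum_congr h1]
  have hd : ((Finset.Icc 1 N : Finset ℕ) : Set ℕ).PairwiseDisjoint A1.PA := by
    intro m _ n _ hmn
    rw [Function.onFun, Finset.disjoint_left]
    intro z hz hz'
    rw [A1.mem_PA] at hz hz'
    apply hmn
    have := hz.1.symm.trans hz'.1
    exact_mod_cast this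
  have h2 : ∀ z ∉ (Finset.Icc 1 N).biUnion A1.PA, g z = 0 := by
    intro z hz
    simp only [hg]
    rw [if_neg]
    rintro ⟨hP, hN⟩
    apply hz
    rw [Finset.mem_biUnion]
    have h0 : 0 < z.norm := GaussianInt.norm_pos.2 (A1.prim_ne_zero hP)
    refine ⟨z.norm.toNat, ?_, ?_⟩
    · rw [Finset.mem_Icc]; omega
    · rw [A1.mem_PA]
      exact ⟨by omega, hP⟩
  rw [tsum_eq_sum h2, Finset.sum_biUnion hd]
  push_cast
  apply Finset.sum_congr rfl
  intro n hn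
  rw [fk_complex]
  apply Finset.sum_congr rfl
  intro z hz
  rw [A1.mem_PA] at hz
  rw [Finset.mem_Icc] at hn
  simp only [hg]
  rw [if_pos ⟨hz.2, by rw [hz.1]; exact_mod_cast hn.2⟩]

/-- partial sums of the coefficients of `L(s, ψ²)` and `L(s, ψ⁴)` -/
theorem fk_sum {k : ℕ} (hk : k = 2 ∨ k = 4) : ∃ C : ℝ, 1 ≤ C ∧ ∀ N : ℕ,
    |∑ n ∈ Finset.Icc 1 N, fk A k n| ≤ C * √(N : ℝ) := by
  have hMz : NeZero (MQ A) := ⟨MQ_ne_zero A⟩
  set W : ℂ := ((MQ A : ℂ) ^ 2)⁻¹ * ∑ v, Gw A k v with hW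
  refine ⟨1 + ‖W‖ * 1400 + 2 * MQ A * (3 * (2 * (2 * k + 1))), ?_, ?_⟩
  · have : 0 ≤ ‖W‖ * 1400 := by positivity
    have h2 : (0 : ℝ) ≤ 2 * MQ A * (3 * (2 * (2 * k + 1))) := by positivity
    linarith
  intro N
  rcases Nat.eq_zero_or_pos N with rfl | hN
  · simp
  have hN1 : (1 : ℝ) ≤ √(N : ℝ) := by
    rw [Real.one_le_sqrt]
    exact_mod_cast hN
  have hs : (Nat.sqrt N : ℝ) ≤ √(N : ℝ) := Real.nat_sqrt_le_real_sqrt
  have hs5 : (Nat.sqrt (5 * N) : ℝ) ≤ 3 * √(N : ℝ) := by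
    refine Real.nat_sqrt_le_real_sqrt.trans ?_
    push_cast
    rw [Real.sqrt_mul (by norm_num)]
    apply mul_le_mul_of_nonneg_right _ (Real.sqrt_nonneg _)
    rw [Real.sqrt_le_left (by norm_num)]
    norm_num
  have hV : (2 * (Nat.sqrt N : ℝ) + 1) * (2 * (2 * k + 1)) ≤ 3 * √(N : ℝ) * (2 * (2 * k + 1)) := by
    apply mul_le_mul_of_nonneg_right _ (by positivity)
    linarith
  have h1 := Lat.avg (Gw A k) (Gw_le A k) (Lat.D_fin k N) ((Lat.vr_D k N).trans hV)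
    ((Lat.vr_D' k N).trans hV)
  rw [← sum_fk_eq, ← hW] at h1
  have hU : ‖∑' z, Lat.D k N z‖ ≤ 1400 * √(N : ℝ) := by
    rcases hk with rfl | rfl
    · rw [Lat.tsum_D_two, norm_zero]; positivity
    · refine (Lat.tsum_D_four N).trans ?_
      linarith
  have h2 : ‖((∑ n ∈ Finset.Icc 1 N, fk A k n : ℝ) : ℂ)‖ ≤
      ‖W‖ * (1400 * √(N : ℝ)) + 2 * MQ A * (3 * √(N : ℝ) * (2 * (2 * k + 1))) := by
    calc ‖((∑ n ∈ Finset.Icc 1 N, fk A k n : ℝ) : ℂ)‖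
        = ‖W * ∑' z, Lat.D k N z + (((∑ n ∈ Finset.Icc 1 N, fk A k n : ℝ) : ℂ) -
            W * ∑' z, Lat.D k N z)‖ := by congr 1; ring
      _ ≤ ‖W * ∑' z, Lat.D k N z‖ + ‖((∑ n ∈ Finset.Icc 1 N, fk A k n : ℝ) : ℂ) -
            W * ∑' z, Lat.D k N z‖ := norm_add_le _ _
      _ ≤ _ := by
          apply add_le_add _ h1
          rw [norm_mul]
          exact mul_le_mul_of_nonneg_left hU (norm_nonneg _)
  rw [Complex.norm_real, Real.norm_eq_abs] at h2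
  refine h2.trans ?_
  have : 0 ≤ √(N : ℝ) := Real.sqrt_nonneg _
  nlinarith

end QN
end P004
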