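import Vale.Agent.P004E.H628.Mf
import Vale.Agent.P004E.H628.N2

/-!
# P004E, module N1: `L(s, sym²)` near `s = 1` for `y² = x³ - A x`, with a power saving
-/

open Real Finset

namespace P004
namespace QN

open P004G (cop RQ LD GoodAt TrivAt CoefQ trQ Crv)
open P004.PSav
open ArithmeticFunction (IsMultiplicative)

/-! ### the character modulo `4` -/

/-- the nontrivial character modulo `4` on the integers coprime to `b` -/
noncomputable def c0 (b : ℕ) : ArithmeticFunction ℝ :=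
  ⟨fun n => if n.Coprime b then ((ZMod.χ₄ (n : ZMod 4) : ℤ) : ℝ) else 0, by simp⟩

lemma c0_apply (b n : ℕ) :
    c0 b n = if n.Coprime b then ((ZMod.χ₄ (n : ZMod 4) : ℤ) : ℝ) else 0 := rfl

lemma c0_one (b : ℕ) : c0 b 1 = 1 := by
  rw [c0_apply, if_pos (Nat.coprime_one_left b)]
  simp

lemma c0_mul (b m n : ℕ) : c0 b (m * n) = c0 b m * c0 b n := by
  rw [c0_apply, c0_apply, c0_apply]
  by_cases h1 : m.Coprime b
  · by_cases h2 : n.Coprime b
    · rw [if_pos (Nat.coprime_mul_iff_left.2 ⟨h1, h2⟩), if_pos h1, if_pos h2]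
      push_cast
      rw [map_mul]
      push_cast
      rfl
    · rw [if_neg (fun h => h2 (Nat.coprime_mul_iff_left.1 h).2), if_neg h2, mul_zero]
  · rw [if_neg (fun h => h1 (Nat.coprime_mul_iff_left.1 h).1), if_neg h1, zero_mul]

lemma c0_le (b n : ℕ) : |c0 b n| ≤ 1 := by
  rw [c0_apply]
  split_ifs
  · have h : ∀ x : ZMod 4, |ZMod.χ₄ x| ≤ 1 := by decide
    exact_mod_cast h n
  · simp

lemma c0_bad {b n : ℕ} (h : ¬ n.Coprime b) : c0 b n = 0 := by rw [c0_apply, if_neg h]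

lemma c0_one_mod {b n : ℕ} (h : n.Coprime b) (h4 : n % 4 = 1) : c0 b n = 1 := by
  rw [c0_apply, if_pos h, ZMod.χ₄_nat_one_mod_four h4]; simp

lemma c0_three_mod {b n : ℕ} (h : n.Coprime b) (h4 : n % 4 = 3) : c0 b n = -1 := by
  rw [c0_apply, if_pos h, ZMod.χ₄_nat_three_mod_four h4]; simp

lemma c0_period (b n : ℕ) : c0 b (4 * b + n) = c0 b n := by
  rw [c0_apply, c0_apply]
  have h1 : (4 * b + n).Coprime b ↔ n.Coprime b := by
    rw [mul_comm 4 b]
    simp
  have h2 : ((4 * b + n : ℕ) : ZMod 4) = (n : ZMod 4) := by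
    push_cast
    have : (4 : ZMod 4) = 0 := by decide
    rw [this]; ring
  simp only [h1, h2]

lemma c0_refl {b n : ℕ} (h : n ≤ 4 * b) : c0 b (4 * b - n) = -c0 b n := by
  rw [c0_apply, c0_apply]
  have h1 : (4 * b - n).Coprime b ↔ n.Coprime b := by
    have h3 : b ∣ 4 * b := Dvd.intro_left _ rfl
    rw [← Nat.isCoprime_iff_coprime, ← Nat.isCoprime_iff_coprime]
    push_cast [Nat.cast_sub h]
    have e : ((4 : ℤ) * b - n) = -(n : ℤ) + b * 4 := by ring
    rw [e, IsCoprime.add_mul_left_left_iff, IsCoprime.neg_left_iff]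
  have h2 : ((4 * b - n : ℕ) : ZMod 4) = -(n : ZMod 4) := by
    rw [Nat.cast_sub h]
    push_cast
    have : (4 : ZMod 4) = 0 := by decide
    rw [this]; ring
  have h3 : ∀ x : ZMod 4, ZMod.χ₄ (-x) = -ZMod.χ₄ x := by decide
  simp only [h1, h2, h3]
  split_ifs
  · push_cast; rfl
  · simp

lemma c0_sum_period (b : ℕ) : ∑ n ∈ range (4 * b), c0 b n = 0 := by
  have h0 : c0 b (4 * b) = 0 := by
    have := c0_refl (b := b) (n := 0) (Nat.zero_le _)
    rw [Nat.sub_zero, ArithmeticFunction.map_zero, neg_zero] at this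
    exact this
  have h1 : ∑ n ∈ range (4 * b + 1), c0 b n = 0 := by
    have h2 : ∑ n ∈ range (4 * b + 1), c0 b n = -∑ n ∈ range (4 * b + 1), c0 b n := by
      conv_lhs => rw [← sum_range_reflect]
      rw [← sum_neg_distrib]
      apply sum_congr rfl
      intro n hn
      rw [mem_range] at hn
      rw [show 4 * b + 1 - 1 - n = 4 * b - n by omega, c0_refl (by omega)]
    linarith
  rw [sum_range_succ, h0, add_zero] at h1
  exact h1

lemma c0_sum_range {b : ℕ} (hb : 0 < b) (N : ℕ) : |∑ n ∈ range N, c0 b n| ≤ 4 * b := by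
  induction N using Nat.strong_induction_on with
  | _ N ih =>
    rcases Nat.lt_or_ge N (4 * b) with h | h
    · calc |∑ n ∈ range N, c0 b n| ≤ ∑ n ∈ range N, |c0 b n| := abs_sum_le_sum_abs _ _
        _ ≤ ∑ n ∈ range N, 1 := sum_le_sum fun n _ => c0_le b n
        _ = N := by simp
        _ ≤ 4 * b := by exact_mod_cast h.le
    · obtain ⟨M, rfl⟩ : ∃ M, N = 4 * b + M := ⟨N - 4 * b, by omega⟩
      rw [sum_range_add, c0_sum_period, zero_add]
      rw [sum_congr rfl fun n _ => c0_period b n]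
      exact ih M (by omega)

lemma sum_Ioc_range (f : ArithmeticFunction ℝ) (N : ℕ) :
    ∑ n ∈ Ioc 0 N, f n = ∑ n ∈ range (N + 1), f n := by
  rw [← sum_subset (s₁ := Ioc 0 N) (s₂ := range (N + 1))]
  · intro n hn
    rw [mem_Ioc] at hn
    rw [mem_range]; omega
  · intro n hn hn'
    rw [mem_range] at hn
    rw [mem_Ioc] at hn'
    have : n = 0 := by omega
    rw [this, ArithmeticFunction.map_zero]

lemma ps_c0 {b : ℕ} (hb : 0 < b) : PS (wt (c0 b)) := by
  apply ps_of_sum (C := 4 * b)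
  · apply small_of_dv
    intro n
    rcases Nat.eq_zero_or_pos n with rfl | hn
    · rw [ArithmeticFunction.map_zero, abs_zero]; exact Nat.cast_nonneg _
    · refine (c0_le b n).trans ?_
      unfold dv
      have : 0 < n.divisors.card := card_pos.2 ⟨1, Nat.one_mem_divisors.2 hn.ne'⟩
      exact_mod_cast this
  · intro N
    rcases Nat.eq_zero_or_pos N with rfl | hN
    · simp
    · rw [sum_Ioc_range]
      refine (c0_sum_range hb _).trans ?_
      apply le_mul_of_one_le_right (by positivity)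
      rw [Real.one_le_sqrt]
      exact_mod_cast hN

/-! ### the second power of the Hecke character -/

variable {A : ℤ}

/-- the coefficients of `L(s, ψ²)` as an arithmetic function -/
noncomputable def F2 (A : ℤ) : ArithmeticFunction ℝ := ⟨fun n => fk A 2 n, fk_zero A 2⟩

lemma F2_apply (A : ℤ) (n : ℕ) : F2 A n = fk A 2 n := rfl

lemma F2_mult (A : ℤ) : IsMultiplicative (F2 A) := ⟨fk_one A 2, fun h => fk_mul A 2 h⟩

lemma ps_F2 (A : ℤ) : PS (wt (F2 A)) := by
  obtain ⟨C, -, hC⟩ := fk_sum A (k := 2) (Or.inl rfl)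
  apply ps_of_sum (C := C)
  · apply small_of_dv
    intro n
    exact fk_le A 2 n
  · intro N
    exact hC N

/-- local data at the primes -/
noncomputable def cc (A : ℤ) (p : ℕ) : ℝ := c0 (2 * RQ A) p

open scoped Classical in
/-- local data at the primes -/
noncomputable def rr (A : ℤ) (p : ℕ) : ℝ := if p.Prime then fk A 2 p else 0

lemma rr_le (A : ℤ) (p : ℕ) : |rr A p| ≤ 2 := by
  unfold rr
  split_ifs with h
  · refine (fk_le A 2 p).trans ?_
    unfold dv
    rw [h.divisors, card_pair h.one_lt.ne]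
    norm_num
  · simp

lemma cop_iff {p : ℕ} (hp : p.Prime) (A : ℤ) : p.Coprime (2 * RQ A) ↔ ¬ p ∣ 2 * RQ A :=
  hp.coprime_iff_not_dvd

lemma odd_of_good {p : ℕ} (hp : p.Prime) (hb : ¬ p ∣ 2 * RQ A) :
    (p % 4 = 1 ∨ p % 4 = 3) ∧ ¬ p ∣ RQ A := by
  have h1 : ¬ p ∣ RQ A := fun h => hb (Dvd.dvd.mul_left h 2)
  have h2 : p ≠ 2 := by
    rintro rfl
    exact hb (dvd_mul_right _ _)
  have h3 := hp.eq_two_or_odd
  refine ⟨by omega, h1⟩

lemma rec2 (A : ℤ) {p : ℕ} (hp : p.Prime) (k : ℕ) :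
    F2 A (p ^ (k + 2)) = rr A p * F2 A (p ^ (k + 1)) - cc A p * F2 A (p ^ k) := by
  have : Fact p.Prime := ⟨hp⟩
  simp only [F2_apply]
  unfold rr cc
  rw [if_pos hp]
  by_cases hb : p ∣ 2 * RQ A
  · rw [fk_bad A hp hb two_ne_zero, fk_bad A hp hb two_ne_zero,
      c0_bad (fun h => (cop_iff hp A).1 h hb)]
    ring
  · obtain ⟨h4, hR⟩ := odd_of_good hp hb
    rcases h4 with h4 | h4
    · obtain ⟨ω, -, h⟩ := fk_split A h4 hR
      rw [(h 2).2 k, c0_one_mod ((cop_iff hp A).2 hb) h4, one_mul]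
    · obtain ⟨h1, -⟩ := fk_inert A h4 hR 2
      obtain ⟨-, h2⟩ := fk_inert A h4 hR 1
      rw [h1, c0_three_mod ((cop_iff hp A).2 hb) h4]
      have h3 := h2 k
      norm_num at h3
      rw [h3]; ring

/-- the squarefree function -/
noncomputable def bA (A : ℤ) : ArithmeticFunction ℝ := mf (gb (cc A) (rr A))

lemma ps_bA (A : ℤ) : PS (wt (bA A)) := by
  have hb : 0 < 2 * RQ A := Nat.mul_pos (by norm_num) (Nat.pos_of_ne_zero (RQ_ne_zero A))
  have h1 : bA A = c0 (2 * RQ A) * F2 A * mf (gh (cc A) (rr A)) := by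
    apply mf_eq
    · exact ⟨c0_one _, fun _ => c0_mul _ _ _⟩
    · exact F2_mult A
    · intro p hp k
      rw [pow_succ, c0_mul, mul_comm]; rfl
    · intro p hp
      rw [F2_apply]; unfold rr; rw [if_pos hp]
    · intro p hp k
      exact rec2 A hp k
  rw [h1, wt_mul, wt_mul]
  exact PS_mul (PS_mul (ps_c0 hb) (ps_F2 A))
    (ps_of_summable (gh_summable (fun p => c0_le _ _) (rr_le A)))

/-- the local relation: `lam p ^ 2 - 1` -/
lemma lam_sq (A : ℤ) {p : ℕ} (hp : p.Prime) (hb : ¬ p ∣ 2 * RQ A) :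
    ((AQ A p : ℝ) / √(p : ℝ)) ^ 2 - 1 = cc A p + rr A p := by
  have : Fact p.Prime := ⟨hp⟩
  obtain ⟨h4, hR⟩ := odd_of_good hp hb
  rw [← fk_one_eq]
  unfold cc rr
  rw [if_pos hp]
  rcases h4 with h4 | h4
  · obtain ⟨ω, hω, h⟩ := fk_split A h4 hR
    rw [(h 1).1, (h 2).1, c0_one_mod ((cop_iff hp A).2 hb) h4, pow_one]
    have h2 : ω.re ^ 2 + ω.im ^ 2 = 1 := by
      have h3 : Complex.normSq ω = 1 := by rw [Complex.normSq_eq_norm_sq, hω]; norm_num
      rw [Complex.normSq_apply] at h3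
      linarith
    rw [sq ω, Complex.mul_re]
    linear_combination 2 * h2
  · rw [(fk_inert A h4 hR 1).1, (fk_inert A h4 hR 2).1, c0_three_mod ((cop_iff hp A).2 hb) h4]
    norm_num

lemma bA_eq (A : ℤ) {n : ℕ} (hn : n ≠ 0) [Decidable (Squarefree n ∧ n.Coprime (2 * RQ A))] :
    bA A n = if Squarefree n ∧ n.Coprime (2 * RQ A) then
      ∏ p ∈ n.primeFactors, (((AQ A p : ℝ) / √(p : ℝ)) ^ 2 - 1) else 0 := by
  unfold bA
  rw [mf_apply _ hn, Finsupp.prod, Nat.support_factorization]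
  split_ifs with h
  · apply prod_congr rfl
    intro p hp
    rw [Nat.mem_primeFactors] at hp
    rw [Nat.factorization_eq_one_of_squarefree h.1 hp.1 hp.2.1, lam_sq A hp.1]
    · rfl
    · intro hd
      exact hp.1.one_lt.ne' (Nat.eq_one_of_dvd_coprimes h.2 hp.2.1 hd)
  · by_cases hs : Squarefree n
    · have hc : ¬ n.Coprime (2 * RQ A) := fun hc => h ⟨hs, hc⟩
      obtain ⟨p, hp, h1, h2⟩ := Nat.Prime.not_coprime_iff_dvd.1 hc
      apply prod_eq_zero (i := p) (Nat.mem_primeFactors.2 ⟨hp, h1, hn⟩)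
      rw [Nat.factorization_eq_one_of_squarefree hs hp h1]
      change cc A p + rr A p = 0
      unfold cc rr
      rw [if_pos hp, c0_bad (fun h => (cop_iff hp A).1 h h2)]
      have h3 := fk_bad A hp h2 two_ne_zero 0
      rw [zero_add, pow_one] at h3
      rw [h3, add_zero]
    · rw [Nat.squarefree_iff_factorization_le_one hn] at hs
      push Not at hs
      obtain ⟨p, hp⟩ := hs
      have h1 : p ∈ n.primeFactors := by
        rw [← Nat.support_factorization, Finsupp.mem_support_iff]; omega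
      apply prod_eq_zero (i := p) h1
      obtain ⟨k, hk⟩ : ∃ k, n.factorization p = k + 2 := ⟨n.factorization p - 2, by omega⟩
      rw [hk]
      rfl

open scoped Classical in
/-- **Module N1** -/
theorem n1Q (hA : A ≠ 0) : @P004E.StN1 (crvQ hA) := by
  let _ := crvQ hA
  obtain ⟨-, D, C, δ, hδ, h⟩ := ps_bA A
  have hC : 0 ≤ C := by
    have := (abs_nonneg _).trans (h 1 le_rfl)
    simpa using this
  refine ⟨C * 2 ^ δ + 1, δ, D, by have : 0 ≤ C * 2 ^ δ := by positivity
                                  linarith, hδ, fun x hx => ?_⟩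
  set N := ⌊x⌋₊ with hN
  have hN1 : 1 ≤ N := by
    rw [hN, Nat.one_le_floor_iff]; exact hx
  have e : ∑ a ∈ (Finset.Icc 1 N).filter (fun a => Squarefree a ∧ a.Coprime P004G.bd),
      (∏ p ∈ a.primeFactors, (P004G.lam p ^ 2 - 1)) / (a : ℝ) = ∑ n ∈ Ioc 0 N, wt (bA A) n := by
    rw [sum_filter]
    apply sum_congr
    · ext a
      rw [mem_Icc, mem_Ioc]; omega
    · intro a ha
      rw [mem_Ioc] at ha
      rw [wt_apply, bA_eq A (by omega)]
      change (if Squarefree a ∧ a.Coprime (2 * RQ A) then _ else _) = _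
      split_ifs
      · rfl
      · rw [zero_div]
  rw [e]
  refine (h N hN1).trans ?_
  have hx0 : 0 < x := by linarith
  have hN0 : (0 : ℝ) < N := by exact_mod_cast hN1
  have h1 : x / 2 ≤ N := by
    have h2 := Nat.lt_floor_add_one x
    have h3 : (1 : ℝ) ≤ N := by exact_mod_cast hN1
    rw [← hN] at h2
    linarith
  have h2 : (N : ℝ) ^ (-δ) ≤ 2 ^ δ * x ^ (-δ) := by
    calc (N : ℝ) ^ (-δ) ≤ (x / 2) ^ (-δ) :=
          Real.rpow_le_rpow_of_nonpos (by positivity) h1 (by linarith)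
      _ = 2 ^ δ * x ^ (-δ) := by
          rw [Real.div_rpow hx0.le (by norm_num), Real.rpow_neg (by norm_num : (0 : ℝ) ≤ 2)]
          field_simp
  have h3 : 0 ≤ x ^ (-δ) := Real.rpow_nonneg hx0.le _
  calc C * (N : ℝ) ^ (-δ) ≤ C * (2 ^ δ * x ^ (-δ)) := mul_le_mul_of_nonneg_left h2 hC
    _ ≤ (C * 2 ^ δ + 1) * x ^ (-δ) := by nlinarith

/-- the small primes -/
theorem hlamQ (hA : A ≠ 0) : @P004E.StHlam (crvQ hA) := by
  let _ := crvQ hA
  intro p hp hb
  have hb' : ¬ p ∣ 2 * RQ A := hb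
  change 10 * |(AQ A p : ℝ)| ≤ 9 * p
  obtain ⟨h4, hR⟩ := odd_of_good hp hb'
  rcases h4 with h4 | h4
  · have h5 : 5 ≤ p := by
      have := hp.two_le
      omega
    have h1 : |(AQ A p : ℝ)| ≤ dv p * √(p : ℝ) := (crvQ hA).c_bound p
    have h2 : dv p = 2 := by
      unfold dv
      rw [hp.divisors, card_pair hp.one_lt.ne]
      norm_num
    rw [h2] at h1
    have h6 : (5 : ℝ) ≤ p := by exact_mod_cast h5
    have h7 : 20 * √(p : ℝ) ≤ 9 * p := by
      have h8 : √(p : ℝ) * √(p : ℝ) = p := Real.mul_self_sqrt (by linarith)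
      have h9 : 20 / 9 ≤ √(p : ℝ) := by
        rw [Real.le_sqrt (by norm_num) (by linarith)]
        norm_num
        linarith
      nlinarith [Real.sqrt_nonneg (p : ℝ)]
    linarith
  · rw [AQ_mod A (by omega)]
    simp

end QN
end P004
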