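import Vale.Agent.P004E.Iface
import Vale.Agent.P004E.H628.Cls2

/-!
# P004E: the unitary Hecke character of `y² = x³ - A x` and its powers
-/

open Real MeasureTheory Set

namespace P004
namespace QN

open P004G (cop RQ LD GoodAt TrivAt CoefQ trQ Crv)
open ComplexConjugate

variable (A : ℤ)

/-- the unitary Hecke character `ψ(z)/|z|` -/
noncomputable def xi (z : GaussianInt) : ℂ :=
  GaussianInt.toComplex (Phi A z * z) / ((√(z.norm : ℝ) : ℝ) : ℂ)

/-- the normalised coefficients of `L(s, ψ^k)` -/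
noncomputable def fk (k n : ℕ) : ℝ := ∑ z ∈ A1.PA n, (xi A z ^ k).re

lemma norm_nn (z : GaussianInt) : (0 : ℝ) ≤ (z.norm : ℝ) := by
  exact_mod_cast GaussianInt.norm_nonneg z

lemma norm_toC (z : GaussianInt) : ‖GaussianInt.toComplex z‖ = √(z.norm : ℝ) := by
  rw [Complex.norm_def, ← GaussianInt.intCast_real_norm]

lemma xi_mul (z w : GaussianInt) : xi A (z * w) = xi A z * xi A w := by
  unfold xi
  rw [Phi_mul, show Phi A z * Phi A w * (z * w) = (Phi A z * z) * (Phi A w * w) by ring, map_mul,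
    Zsqrtd.norm_mul, Int.cast_mul, Real.sqrt_mul (norm_nn z), Complex.ofReal_mul,
    mul_div_mul_comm]

lemma xi_one : xi A 1 = 1 := by
  unfold xi
  rw [Phi_one, mul_one, Zsqrtd.norm_one]
  simp

lemma xi_pow (z : GaussianInt) (n : ℕ) : xi A (z ^ n) = xi A z ^ n := by
  induction n with
  | zero => rw [pow_zero, pow_zero, xi_one]
  | succ n ih => rw [pow_succ, pow_succ, xi_mul, ih]

lemma toC_star (z : GaussianInt) :
    GaussianInt.toComplex (star z) = conj (GaussianInt.toComplex z) :=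
  GaussianInt.toComplex_star z

lemma xi_star (z : GaussianInt) : xi A (star z) = conj (xi A z) := by
  unfold xi
  rw [Phi_star, ← star_mul', toC_star, map_div₀, Complex.conj_ofReal, Zsqrtd.norm_conj]

lemma norm_xi {z : GaussianInt} (h : Phi A z ≠ 0) : ‖xi A z‖ = 1 := by
  have hz : z ≠ 0 := by
    rintro rfl
    rw [Phi_ne_zero_iff] at h
    simp at h
  have h1 : (Phi A z).norm = 1 := by
    have h2 := Phi_mul_star A h
    rw [← Zsqrtd.norm_eq_mul_conj] at h2
    exact_mod_cast h2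
  unfold xi
  rw [norm_div, norm_toC, Zsqrtd.norm_mul, h1, one_mul, Complex.norm_real,
    Real.norm_of_nonneg (Real.sqrt_nonneg _)]
  apply div_self
  apply (Real.sqrt_pos.2 _).ne'
  exact_mod_cast GaussianInt.norm_pos.2 hz

lemma xi_zero {z : GaussianInt} (h : Phi A z = 0) : xi A z = 0 := by
  unfold xi
  rw [h, zero_mul, map_zero, zero_div]

lemma norm_xi_le (z : GaussianInt) : ‖xi A z‖ ≤ 1 := by
  by_cases h : Phi A z = 0
  · rw [xi_zero A h, norm_zero]; norm_num
  · rw [norm_xi A h]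

lemma xi_unit {u : GaussianInt} (hu : u.norm = 1) : xi A u = 1 := by
  unfold xi
  rw [Phi_unit A hu, mul_comm, unit_mul_star hu, hu]
  simp

lemma fk_complex (k n : ℕ) : ((fk A k n : ℝ) : ℂ) = ∑ z ∈ A1.PA n, xi A z ^ k := by
  have h0 : ∑ z ∈ A1.PA n, xi A z ^ k = conj (∑ z ∈ A1.PA n, xi A z ^ k) := by
    rw [map_sum]
    refine Finset.sum_nbij' star star ?_ ?_ ?_ ?_ ?_
    · intro z hz
      rw [A1.mem_PA] at hz ⊢
      exact ⟨by rw [Zsqrtd.norm_conj]; exact hz.1, A1.prim_star hz.2⟩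
    · intro z hz
      rw [A1.mem_PA] at hz ⊢
      exact ⟨by rw [Zsqrtd.norm_conj]; exact hz.1, A1.prim_star hz.2⟩
    · intro z _; exact star_star z
    · intro z _; exact star_star z
    · intro z _
      rw [xi_star, map_pow, Complex.conj_conj]
  have h1 : (∑ z ∈ A1.PA n, xi A z ^ k).im = 0 := Complex.conj_eq_iff_im.1 h0.symm
  apply Complex.ext
  · rw [Complex.ofReal_re, Complex.re_sum]; rfl
  · rw [Complex.ofReal_im, h1]

lemma fk_one (k : ℕ) : fk A k 1 = 1 := by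
  unfold fk
  rw [A1.PA_one, Finset.sum_singleton, xi_one, one_pow, Complex.one_re]

lemma fk_mul (k : ℕ) {m n : ℕ} (h : Nat.Coprime m n) : fk A k (m * n) = fk A k m * fk A k n := by
  have h1 : ((fk A k (m * n) : ℝ) : ℂ) = ((fk A k m : ℝ) : ℂ) * ((fk A k n : ℝ) : ℂ) := by
    rw [fk_complex, fk_complex, fk_complex, Finset.sum_mul_sum, ← Finset.sum_product']
    symm
    apply Finset.sum_nbij (fun p : GaussianInt × GaussianInt => p.1 * p.2)
      (fun p hp => A1.maps_mul hp) (A1.inj_mul h) (A1.surj_mul h)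
    intro p _
    rw [xi_mul, mul_pow]
  exact_mod_cast h1

lemma fk_zero (k : ℕ) : fk A k 0 = 0 := by
  unfold fk
  rw [A1.mod_four (by norm_num), Finset.sum_empty]

lemma fk_le (k n : ℕ) : |fk A k n| ≤ dv n := by
  unfold fk dv
  refine (Finset.abs_sum_le_sum_abs _ _).trans ?_
  calc ∑ z ∈ A1.PA n, |(xi A z ^ k).re| ≤ ∑ z ∈ A1.PA n, 1 := by
        apply Finset.sum_le_sum
        intro z _
        refine (Complex.abs_re_le_norm _).trans ?_
        rw [norm_pow]
        exact pow_le_one₀ (norm_nonneg _) (norm_xi_le A z)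
    _ = ((A1.PA n).card : ℝ) := by simp
    _ ≤ (n.divisors.card : ℝ) := by
        rcases Nat.eq_zero_or_pos n with rfl | hn
        · rw [A1.mod_four (by norm_num)]; simp
        · exact_mod_cast A1.card_le n

lemma fk_one_eq (n : ℕ) : fk A 1 n = (AQ A n : ℝ) / √(n : ℝ) := by
  unfold fk AQ
  push_cast
  rw [Finset.sum_div]
  apply Finset.sum_congr rfl
  intro z hz
  rw [A1.mem_PA] at hz
  unfold xi
  rw [pow_one, hz.1, Complex.div_ofReal_re, ← GaussianInt.intCast_re, Int.cast_natCast]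

lemma geom_rec {R : Type*} [CommRing R] (x y : R) (k : ℕ) :
    ∑ i ∈ Finset.range (k + 2 + 1), x ^ i * y ^ (k + 2 - i) =
      (x + y) * (∑ i ∈ Finset.range (k + 1 + 1), x ^ i * y ^ (k + 1 - i)) -
        x * y * (∑ i ∈ Finset.range (k + 1), x ^ i * y ^ (k - i)) := by
  have h : ∀ n : ℕ, ∑ i ∈ Finset.range (n + 1 + 1), x ^ i * y ^ (n + 1 - i) =
      x ^ (n + 1) + y * ∑ i ∈ Finset.range (n + 1), x ^ i * y ^ (n - i) := by
    intro n
    rw [Finset.sum_range_succ, Nat.sub_self, pow_zero, mul_one, add_comm, Finset.mul_sum]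
    congr 1
    apply Finset.sum_congr rfl
    intro i hi
    rw [Finset.mem_range] at hi
    have : n + 1 - i = (n - i) + 1 := by omega
    rw [this, pow_succ]
    ring
  rw [h (k + 1), h k]
  ring

/-- split primes -/
lemma fk_split {p : ℕ} [hp : Fact p.Prime] (h4 : p % 4 = 1) (hb : ¬ p ∣ RQ A) :
    ∃ ω : ℂ, ‖ω‖ = 1 ∧ ∀ k : ℕ, fk A k p = 2 * (ω ^ k).re ∧
      ∀ j, fk A k (p ^ (j + 2)) = fk A k p * fk A k (p ^ (j + 1)) - fk A k (p ^ j) := by
  classical
  obtain ⟨ϖ, hN, hP⟩ := A1.exists_pi h4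
  have hne : Phi A ϖ ≠ 0 := by
    rw [Phi_ne_zero_iff, hN, Int.natAbs_natCast, Nat.coprime_mul_iff_right]
    exact ⟨Nat.coprime_two_right.2 (Nat.odd_iff.2 (by omega)),
      (Nat.Prime.coprime_iff_not_dvd hp.out).2 hb⟩
  have h1 := norm_xi A hne
  have hxy : ∀ k : ℕ, xi A ϖ ^ k * xi A (star ϖ) ^ k = 1 := by
    intro k
    rw [← mul_pow, xi_star, Complex.mul_conj, Complex.normSq_eq_norm_sq, h1]
    norm_num
  have S1 : ∀ k j : ℕ, ((fk A k (p ^ j) : ℝ) : ℂ) =
      ∑ i ∈ Finset.range (j + 1), (xi A ϖ ^ k) ^ i * (xi A (star ϖ) ^ k) ^ (j - i) := by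
    intro k j
    rw [fk_complex, A1.PA_pow hN hP, Finset.sum_image (A1.injOn_pow hN hP j)]
    apply Finset.sum_congr rfl
    intro i _
    rw [xi_mul, xi_pow, xi_pow, mul_pow, ← pow_mul, ← pow_mul, ← pow_mul, ← pow_mul,
      mul_comm i k, mul_comm (j - i) k]
  have e1 : ∀ k : ℕ, ((fk A k p : ℝ) : ℂ) = xi A ϖ ^ k + xi A (star ϖ) ^ k := by
    intro k
    have h := S1 k 1
    rw [pow_one] at h
    rw [h, Finset.sum_range_succ, Finset.sum_range_one]
    simp
    ring
  refine ⟨xi A ϖ, h1, fun k => ⟨?_, fun j => ?_⟩⟩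
  · have h := congrArg Complex.re (e1 k)
    rw [Complex.ofReal_re, xi_star, ← map_pow, Complex.add_re, Complex.conj_re] at h
    rw [h]; ring
  · have h : ((fk A k (p ^ (j + 2)) : ℝ) : ℂ) =
        ((fk A k p * fk A k (p ^ (j + 1)) - fk A k (p ^ j) : ℝ) : ℂ) := by
      push_cast
      rw [S1, S1, S1, e1, geom_rec, hxy, one_mul]
    exact_mod_cast h

/-- inert primes -/
lemma fk_inert {p : ℕ} [hp : Fact p.Prime] (h4 : p % 4 = 3) (hb : ¬ p ∣ RQ A) (k : ℕ) :
    fk A k p = 0 ∧ ∀ j, fk A (2 * k) (p ^ (j + 2)) = fk A (2 * k) (p ^ j) := by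
  constructor
  · unfold fk
    rw [A1.mod_four (by omega), Finset.sum_empty]
  · intro j
    have hc : p.Coprime (RQ A) := (Nat.Prime.coprime_iff_not_dvd hp.out).2 hb
    have hΦ : Phi A ((-(p : ℤ) : ℤ) : GaussianInt) = 1 := by
      apply Phi_int A (by omega)
      rw [Int.natAbs_neg, Int.natAbs_natCast]
      exact hc
    have hx : xi A ((-(p : ℤ) : ℤ) : GaussianInt) ^ 2 = 1 := by
      unfold xi
      rw [hΦ, one_mul, Zsqrtd.norm_intCast, div_pow]
      have h5 : ((√(((-(p : ℤ)) * (-(p : ℤ)) : ℤ) : ℝ) : ℝ) : ℂ) ^ 2 = (p : ℂ) ^ 2 := by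
        rw [← Complex.ofReal_pow, Real.sq_sqrt]
        · push_cast; ring
        · push_cast
          have : (0 : ℝ) ≤ p := Nat.cast_nonneg p
          nlinarith
      rw [h5]
      have h6 : (p : ℂ) ≠ 0 := by exact_mod_cast hp.out.ne_zero
      have h7 : GaussianInt.toComplex ((-(p : ℤ) : ℤ) : GaussianInt) = -(p : ℂ) := by
        rw [map_intCast]
        push_cast
        rfl
      rw [h7, neg_sq]
      exact div_self (pow_ne_zero 2 h6)
    unfold fk
    rw [A1.PA_three h4, Finset.sum_map]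
    apply Finset.sum_congr rfl
    intro z _
    change (xi A (((-(p : ℤ) : ℤ) : GaussianInt) * z) ^ (2 * k)).re = _
    rw [xi_mul, mul_pow, pow_mul (xi A ((-(p : ℤ) : ℤ) : GaussianInt)), hx, one_pow, one_mul]

/-- bad primes -/
lemma fk_bad {p : ℕ} (hp : p.Prime) (hb : p ∣ 2 * RQ A) {k : ℕ} (hk : k ≠ 0) (j : ℕ) :
    fk A k (p ^ (j + 1)) = 0 := by
  unfold fk
  apply Finset.sum_eq_zero
  intro z hz
  rw [A1.mem_PA] at hz
  have h1 : Phi A z = 0 := by
    by_contra h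
    rw [← Ne, Phi_ne_zero_iff, hz.1, Int.natAbs_natCast] at h
    exact hp.one_lt.ne' (Nat.eq_one_of_dvd_coprimes h (dvd_pow_self p (by omega)) hb)
  rw [xi_zero A h1, zero_pow hk]
  rfl

lemma fk_ncop {n : ℕ} (hn : ¬ n.Coprime (2 * RQ A)) {k : ℕ} (hk : k ≠ 0) : fk A k n = 0 := by
  unfold fk
  apply Finset.sum_eq_zero
  intro z hz
  rw [A1.mem_PA] at hz
  have h1 : Phi A z = 0 := by
    by_contra h
    rw [← Ne, Phi_ne_zero_iff, hz.1, Int.natAbs_natCast] at h
    exact hn h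
  rw [xi_zero A h1, zero_pow hk]
  rfl

end QN
end P004
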